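import Vale.Agent.P038.Median

/-!
The last vertices of a median order of an orientation of a quasi-random graph.
-/

namespace Vale.Agent.P038

open Finset

variable {V : Type} [Fintype V] [DecidableEq V]

/-- earlier vertices that `v` points to -/
def aSet (D : V → V → Prop) [DecidableRel D] (pos : V → ℕ) (v : V) : Finset V :=
  univ.filter fun x => pos x < pos v ∧ D v x

/-- earlier vertices at distance more than two from `v` -/
def bSet (D : V → V → Prop) [DecidableRel D] (pos : V → ℕ) (v : V) : Finset V :=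
  univ.filter fun x => pos x < pos v ∧ ¬ D v x ∧ ∀ a, D v a → ¬ D a x

/-- earlier vertices at distance exactly two from `v` -/
def cSet (D : V → V → Prop) [DecidableRel D] (pos : V → ℕ) (v : V) : Finset V :=
  univ.filter fun x => pos x < pos v ∧ ¬ D v x ∧ ∃ a, D v a ∧ D a x

/-- forced backward arcs from distant vertices to out-neighbours -/
def mPairs (D : V → V → Prop) [DecidableRel D] (pos : V → ℕ) (v : V) : Finset (V × V) :=
  (aSet D pos v ×ˢ bSet D pos v).filter fun q => pos q.1 < pos q.2 ∧ D q.2 q.1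

/-- backward arcs from distant vertices to second neighbours -/
def slackPairs (D : V → V → Prop) [DecidableRel D] (pos : V → ℕ) (v : V) : Finset (V × V) :=
  (cSet D pos v ×ˢ bSet D pos v).filter fun q => pos q.1 < pos q.2 ∧ D q.2 q.1

variable (D : V → V → Prop) [DecidableRel D] (pos : V → ℕ)

/-- Vertices of a median order, on every interval ending at them. -/
structure IsMedian : Prop where
  lt : ∀ x, pos x < Fintype.card V
  inj : Function.Injective pos
  best : ∀ g : V → ℕ, Function.Injective g →
    (univ.filter fun q : V × V => D q.1 q.2 ∧ g q.1 < g q.2).card ≤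
      (univ.filter fun q : V × V => D q.1 q.2 ∧ pos q.1 < pos q.2).card

variable {D pos}

lemma mem_abc {v x : V} (hx : pos x < pos v) :
    x ∈ aSet D pos v ∨ x ∈ bSet D pos v ∨ x ∈ cSet D pos v := by
  simp only [aSet, bSet, cSet, mem_filter, mem_univ, true_and, hx]
  by_cases h : D v x
  · exact Or.inl h
  · by_cases h' : ∃ a, D v a ∧ D a x
    · exact Or.inr (Or.inr ⟨h, h'⟩)
    · exact Or.inr (Or.inl ⟨h, fun a ha hax => h' ⟨a, ha, hax⟩⟩)

/-- The outdegree splits into the earlier part and at most `ℓ` later vertices. -/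
lemma out_le (hm : IsMedian D pos) (v : V) (ℓ : ℕ) (hv : Fintype.card V ≤ pos v + ℓ) :
    (univ.filter fun u => D v u).card ≤ (aSet D pos v).card + ℓ := by
  have hsub : (univ.filter fun u => D v u) ⊆
      aSet D pos v ∪ univ.filter (fun x => pos v ≤ pos x) := fun x hx => by
    simp only [aSet, mem_filter, mem_univ, true_and, mem_union] at hx ⊢
    rcases lt_or_ge (pos x) (pos v) with h | h
    · exact Or.inl ⟨h, hx⟩
    · exact Or.inr h
  have := (card_le_card hsub).trans (card_union_le _ _)
  rw [card_tail pos hm.lt hm.inj] at this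
  omega

lemma cSet_subset (v : V) : cSet D pos v ⊆
    univ.filter (fun w => w ≠ v ∧ ¬ D v w ∧ ∃ u, D v u ∧ D u w) := fun x hx => by
  simp only [cSet, mem_filter, mem_univ, true_and] at hx ⊢
  exact ⟨fun h => by rw [h] at hx; omega, hx.2⟩

/-- The interval inequality for the distant vertices. -/
lemma bad_move (hm : IsMedian D pos) (v : V) (s : ℕ) :
    (((aSet D pos v) ×ˢ (bSet D pos v)).filter fun q =>
        s ≤ pos q.1 ∧ pos q.1 < pos q.2 ∧ (D q.1 q.2 ∨ D q.2 q.1)).card
      + (((cSet D pos v) ×ˢ (bSet D pos v)).filter fun q =>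
        s ≤ pos q.1 ∧ pos q.1 < pos q.2 ∧ D q.2 q.1).card ≤
    (((cSet D pos v) ×ˢ (bSet D pos v)).filter fun q =>
        s ≤ pos q.1 ∧ pos q.1 < pos q.2 ∧ D q.1 q.2).card := by
  classical
  have h := median_move D pos hm.lt hm.inj hm.best s (pos v)
    ((bSet D pos v).filter fun y => s ≤ pos y) (fun y hy => by
      simp only [bSet, mem_filter, mem_univ, true_and] at hy
      exact ⟨hy.2, hy.1.1⟩)
  rw [← card_union_of_disjoint]
  · refine le_trans (le_trans (card_le_card fun q hq => ?_) h) (card_le_card fun q hq => ?_)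
    · simp only [mem_union, mem_filter, mem_product, mem_univ, true_and] at hq ⊢
      rcases hq with ⟨⟨h1, h2⟩, h3, h4, h5⟩ | ⟨⟨h1, h2⟩, h3, h4, h5⟩
      · simp only [aSet, bSet, mem_filter, mem_univ, true_and] at h1 h2 ⊢
        exact ⟨⟨h2, by omega⟩, fun hc => hc.1.2.1 h1.2, h3, h4,
          h5.resolve_left (h2.2.2 _ h1.2)⟩
      · simp only [cSet, bSet, mem_filter, mem_univ, true_and] at h1 h2 ⊢
        exact ⟨⟨h2, by omega⟩, fun hc => by obtain ⟨a, ha, hax⟩ := h1.2.2; exact hc.1.2.2 a ha hax,
          h3, h4, h5⟩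
    · simp only [mem_filter, mem_product, mem_univ, true_and, not_and] at hq ⊢
      obtain ⟨⟨h1, h1'⟩, h2, h3, h4, h5⟩ := hq
      have hlt : pos q.1 < pos v := by
        simp only [bSet, mem_filter, mem_univ, true_and] at h1
        omega
      refine ⟨⟨?_, h1⟩, h3, h4, h5⟩
      rcases mem_abc (D := D) hlt with ha | hb | hc
      · simp only [aSet, bSet, mem_filter, mem_univ, true_and] at ha h1
        exact absurd h5 (h1.2.2 _ ha.2)
      · exact absurd h3 (h2 hb)
      · exact hc
  · rw [disjoint_left]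
    intro q h1 h2
    simp only [mem_filter, mem_product, aSet, cSet, mem_univ, true_and] at h1 h2
    exact h2.1.1.2.1 h1.1.1.2

/-- Pairs in front of each distant vertex, counted in two ways. -/
lemma pair_count (X B : Finset V) (s : ℕ) :
    ((X ×ˢ B).filter fun q => s ≤ pos q.1 ∧ pos q.1 < pos q.2).card =
      ∑ b ∈ B, (X.filter fun x => s ≤ pos x ∧ pos x < pos b).card := by
  simp only [card_filter]
  rw [sum_product, sum_comm]

lemma split_at (X : Finset V) {s t : ℕ} (h : s ≤ t) :
    ((X.filter fun x => s ≤ pos x ∧ pos x < t).card : ℝ) =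
      (X.filter fun x => pos x < t).card - (X.filter fun x => pos x < s).card := by
  rw [eq_sub_iff_add_eq, ← Nat.cast_add, ← card_union_of_disjoint]
  · congr 2
    ext x
    simp only [mem_union, mem_filter]
    constructor
    · rintro (⟨a, b, c⟩ | ⟨a, b⟩)
      exacts [⟨a, c⟩, ⟨a, by omega⟩]
    · rintro ⟨a, b⟩
      by_cases hs : s ≤ pos x
      exacts [Or.inl ⟨a, hs, b⟩, Or.inr ⟨a, by omega⟩]
  · rw [disjoint_left]
    intro x h1 h2
    simp only [mem_filter] at h1 h2
    omega

/-- A last vertex without surplus sees few backward arcs to its second neighbourhood. -/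
lemma slack_le (anti : ∀ u w, D u w → ¬ D w u) (hm : IsMedian D pos) (v : V) (ℓ K : ℕ) (σ e p : ℝ)
    (hp : 0 < p) (hp1 : p ≤ 1) (he : 0 ≤ e) (hσ : 0 ≤ σ) (hK : 0 < K)
    (hv : Fintype.card V ≤ pos v + ℓ)
    (htri : ∀ X Y : Finset V,
      |(((X ×ˢ Y).filter fun q => (D q.1 q.2 ∨ D q.2 q.1) ∧ pos q.1 < pos q.2).card : ℝ)
        - p * ((X ×ˢ Y).filter fun q => pos q.1 < pos q.2).card| ≤ e)
    (hfail : ((univ.filter (fun w => w ≠ v ∧ ¬ D v w ∧ ∃ u, D v u ∧ D u w)).card : ℝ) <
      (univ.filter fun u => D v u).card + σ) :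
    ((slackPairs D pos v).card : ℝ) ≤
      Fintype.card V * (σ + ℓ + K + 2 * e / p / K) := by
  classical
  set n := Fintype.card V
  set A := aSet D pos v with hA
  set B := bSet D pos v with hB
  set C := cSet D pos v with hC
  have he' : 0 ≤ 2 * e / p / K := by positivity
  have hn : (0 : ℝ) ≤ n := Nat.cast_nonneg _
  have hlow : ((slackPairs D pos v).card : ℝ) ≤ n * B.card := by
    have h := card_filter_le (C ×ˢ B) (fun q => pos q.1 < pos q.2 ∧ D q.2 q.1)
    rw [card_product] at h
    have h' : C.card * B.card ≤ n * B.card := Nat.mul_le_mul_right _ (card_le_univ C)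
    exact_mod_cast h.trans h'
  rcases lt_or_ge B.card K with hBK | hBK
  · refine hlow.trans (mul_le_mul_of_nonneg_left ?_ hn)
    have : (B.card : ℝ) ≤ K := by exact_mod_cast hBK.le
    have : (0 : ℝ) ≤ ℓ := Nat.cast_nonneg _
    linarith
  let g : V → ℝ := fun b =>
    (A.filter fun x => pos x < pos b).card - (C.filter fun x => pos x < pos b).card
  -- every interval gives an inequality
  have key : ∀ s, (((A ×ˢ B).filter fun q => s ≤ pos q.1 ∧ pos q.1 < pos q.2).card : ℝ) -
      ((C ×ˢ B).filter fun q => s ≤ pos q.1 ∧ pos q.1 < pos q.2).card ≤ (2 * e -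
        2 * ((C ×ˢ B).filter fun q => s ≤ pos q.1 ∧ pos q.1 < pos q.2 ∧ D q.2 q.1).card) / p := by
    intro s
    rw [le_div_iff₀ hp]
    have conv : ∀ X : Finset V,
        |(((X ×ˢ B).filter fun q =>
            s ≤ pos q.1 ∧ pos q.1 < pos q.2 ∧ (D q.1 q.2 ∨ D q.2 q.1)).card : ℝ)
          - p * ((X ×ˢ B).filter fun q => s ≤ pos q.1 ∧ pos q.1 < pos q.2).card| ≤ e := by
      intro X
      have e1 : ((X ×ˢ B).filter fun q =>
            s ≤ pos q.1 ∧ pos q.1 < pos q.2 ∧ (D q.1 q.2 ∨ D q.2 q.1)) =
          ((X.filter fun x => s ≤ pos x) ×ˢ B).filter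
            fun q => (D q.1 q.2 ∨ D q.2 q.1) ∧ pos q.1 < pos q.2 := by
        ext q; simp only [mem_filter, mem_product]; tauto
      have e2 : ((X ×ˢ B).filter fun q => s ≤ pos q.1 ∧ pos q.1 < pos q.2) =
          ((X.filter fun x => s ≤ pos x) ×ˢ B).filter fun q => pos q.1 < pos q.2 := by
        ext q; simp only [mem_filter, mem_product]; tauto
      rw [e1, e2]
      exact htri _ _
    have hA' := abs_le.1 (conv A)
    have hC' := abs_le.1 (conv C)
    have hsplit : ((C ×ˢ B).filter fun q =>
          s ≤ pos q.1 ∧ pos q.1 < pos q.2 ∧ (D q.1 q.2 ∨ D q.2 q.1)).card =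
        ((C ×ˢ B).filter fun q => s ≤ pos q.1 ∧ pos q.1 < pos q.2 ∧ D q.1 q.2).card +
        ((C ×ˢ B).filter fun q => s ≤ pos q.1 ∧ pos q.1 < pos q.2 ∧ D q.2 q.1).card := by
      rw [← card_union_of_disjoint]
      · congr 1; ext q; simp only [mem_filter, mem_union]; tauto
      · exact disjoint_filter.2 fun q _ h h' => anti _ _ h.2.2 h'.2.2
    have hb := bad_move hm v s
    have hbR := (Nat.cast_le (α := ℝ)).2 hb
    push_cast at hbR
    rw [← hA, ← hB, ← hC] at hbR
    have hsR := congrArg (Nat.cast (R := ℝ)) hsplit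
    push_cast at hsR
    linarith [hA'.1, hA'.2, hC'.1, hC'.2]
  have hsum : ∀ s, ∀ S : Finset V, S ⊆ B → (∀ b ∈ S, s ≤ pos b) → (∀ b ∈ B, b ∉ S → pos b ≤ s) →
      ∑ b ∈ S, (g b - ((A.filter fun x => pos x < s).card - (C.filter fun x => pos x < s).card)) =
      (((A ×ˢ B).filter fun q => s ≤ pos q.1 ∧ pos q.1 < pos q.2).card : ℝ) -
        ((C ×ˢ B).filter fun q => s ≤ pos q.1 ∧ pos q.1 < pos q.2).card := by
    intro s S hS h1 h2
    rw [pair_count, pair_count, Nat.cast_sum, Nat.cast_sum, ← sum_sub_distrib]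
    refine (sum_subset_zero_on_sdiff hS (fun b hb => ?_) (fun b hb => ?_))
    · rw [mem_sdiff] at hb
      have := h2 b hb.1 hb.2
      rw [filter_false_of_mem, filter_false_of_mem]
      · simp
      all_goals intro x _; omega
    · rw [split_at A (h1 b hb), split_at C (h1 b hb)]
      ring
  have h0 : ∑ b ∈ B, g b ≤ 2 * e / p - 2 * (slackPairs D pos v).card / p := by
    have := hsum 0 B Subset.rfl (fun b _ => Nat.zero_le _) (fun b hb hb' => absurd hb hb')
    simp only [Nat.not_lt_zero, filter_false, card_empty, Nat.cast_zero, sub_zero] at this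
    rw [this]
    refine (key 0).trans (le_of_eq ?_)
    rw [sub_div]
    simp only [slackPairs, Nat.zero_le, true_and]
    rfl
  obtain ⟨S, hS, hcard, hup, hg⟩ := suffix_bound pos hm.inj g (2 * e / p)
    (2 * (slackPairs D pos v).card / p) B h0 (fun i hi => by
      rw [hsum (pos i) _ (filter_subset _ _) (fun b hb => (mem_filter.1 hb).2)
        (fun b hb hb' => by simp only [mem_filter, hb, true_and, not_le] at hb'; omega)]
      refine (key (pos i)).trans ?_
      gcongr
      linarith [(Nat.cast_nonneg _ : (0 : ℝ) ≤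
        ((C ×ˢ B).filter fun q => pos i ≤ pos q.1 ∧ pos q.1 < pos q.2 ∧ D q.2 q.1).card)])
    (B.card - K) (by omega)
  have hSK : S.card = K := by omega
  obtain ⟨b, hb, hbmin⟩ : ∃ b ∈ S,
      g b ≤ (2 * e / p - 2 * (slackPairs D pos v).card / p * ((S.card : ℝ) / B.card)) / K := by
    by_contra hc
    push Not at hc
    have := sum_lt_sum_of_nonempty (card_pos.1 (by omega)) hc
    rw [sum_const, hSK, nsmul_eq_mul, mul_div_cancel₀ _ (by positivity)] at this
    rw [hSK] at hg
    linarith
  -- the tail after `b`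
  have hbB := hS hb
  have hbv : pos b < pos v := by
    simp only [hB, bSet, mem_filter, mem_univ, true_and] at hbB
    exact hbB.1
  have htail : (A.filter fun x => pos b ≤ pos x).card ≤
      (C.filter fun x => pos b ≤ pos x).card + K := by
    have h := median_move D pos hm.lt hm.inj hm.best (pos b) (pos v + 1) {v}
      (fun y hy => by rw [mem_singleton] at hy; subst hy; omega)
    have l1 : (A.filter fun x => pos b ≤ pos x).card ≤ _ := le_trans
      (card_le_card_of_injOn (fun x => (x, v)) (fun x hx => by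
        simp only [hA, aSet, mem_coe, mem_filter, mem_univ, true_and] at hx
        simp only [mem_coe, mem_filter, mem_univ, true_and, mem_singleton]
        exact ⟨fun h => by rw [h] at hx; omega, hx.2, hx.1.1, hx.1.2⟩)
        fun a _ c _ h => (Prod.ext_iff.1 h).1) h
    refine l1.trans ?_
    rw [← hSK]
    refine le_trans ?_ (card_union_le _ _)
    refine card_le_card_of_injOn Prod.fst (fun q hq => ?_) fun a ha c hc h => ?_
    · simp only [mem_coe, mem_filter, mem_univ, true_and, mem_singleton] at hq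
      obtain ⟨h1, h2, h3, h4, h5⟩ := hq
      rw [h1] at h4 h5
      rw [mem_coe, mem_union, mem_filter]
      rcases mem_abc (D := D) h4 with ha | hb' | hc'
      · simp only [aSet, mem_filter, mem_univ, true_and] at ha
        exact absurd h5 (anti _ _ ha.2)
      · exact Or.inr (hup b hb _ hb' h3)
      · exact Or.inl ⟨hc', h3⟩
    · simp only [mem_coe, mem_filter, mem_univ, true_and, mem_singleton] at ha hc
      exact Prod.ext h (ha.1.trans hc.1.symm)
  have hd := out_le hm v ℓ hv
  have hc : C.card ≤ _ := card_le_card (cSet_subset (D := D) (pos := pos) v)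
  have sA : A.card = (A.filter fun x => pos x < pos b).card +
      (A.filter fun x => pos b ≤ pos x).card := by
    rw [← card_filter_add_card_filter_not (s := A) (fun x => pos x < pos b)]
    simp only [not_lt]
  have sC : C.card = (C.filter fun x => pos x < pos b).card +
      (C.filter fun x => pos b ≤ pos x).card := by
    rw [← card_filter_add_card_filter_not (s := C) (fun x => pos x < pos b)]
    simp only [not_lt]
  have hdR := (Nat.cast_le (α := ℝ)).2 hd
  have hcR := (Nat.cast_le (α := ℝ)).2 hc
  have htR := (Nat.cast_le (α := ℝ)).2 htail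
  have sAR := congrArg (Nat.cast (R := ℝ)) sA
  have sCR := congrArg (Nat.cast (R := ℝ)) sC
  push_cast at hdR hcR htR sAR sCR
  rw [← hA] at hdR
  have hKpos : (0 : ℝ) < K := by exact_mod_cast hK
  have hBn : (B.card : ℝ) ≤ n := by exact_mod_cast card_le_univ B
  have hBpos : (0 : ℝ) < B.card := by exact_mod_cast (show 0 < B.card by omega)
  rw [hSK, sub_div] at hbmin
  have e1 : 2 * ((slackPairs D pos v).card : ℝ) / p * ((K : ℝ) / B.card) / K =
      2 * (slackPairs D pos v).card / p / B.card := by field_simp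
  rw [e1] at hbmin
  simp only [g] at hbmin
  have hX : 2 * ((slackPairs D pos v).card : ℝ) / p / B.card ≤ σ + ℓ + K + 2 * e / p / K := by
    linarith
  have h2 : ((slackPairs D pos v).card : ℝ) ≤ 2 * (slackPairs D pos v).card / p := by
    rw [le_div_iff₀ hp]
    nlinarith [(Nat.cast_nonneg _ : (0 : ℝ) ≤ (slackPairs D pos v).card)]
  have h3 := (div_le_iff₀ hBpos).1 hX
  refine h2.trans (h3.trans ?_)
  rw [mul_comm]
  exact mul_le_mul_of_nonneg_right hBn (by positivity)

/-- A last vertex with few forced backward arcs and a typical neighbourhood has a surplus. -/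
lemma surplus (anti : ∀ u w, D u w → ¬ D w u) (hm : IsMedian D pos) (v : V) (ℓ K w : ℕ)
    (e p γ : ℝ) (hp : 0 < p) (hp1 : p ≤ 1) (hK : 0 < K) (hw : 0 < w)
    (hv : Fintype.card V ≤ pos v + ℓ)
    (htri : ∀ X Y : Finset V,
      |(((X ×ˢ Y).filter fun q => (D q.1 q.2 ∨ D q.2 q.1) ∧ pos q.1 < pos q.2).card : ℝ)
        - p * ((X ×ˢ Y).filter fun q => pos q.1 < pos q.2).card| ≤ e)
    (hgrid : ∀ i ≤ Fintype.card V / w + 1,
      ((univ.filter fun x => i * w ≤ pos x ∧ (D v x ∨ D x v)).card : ℝ) ≤
        p * (univ.filter fun x => i * w ≤ pos x).card + γ) :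
    ∃ a : ℝ, 0 ≤ a ∧ a * K * p ≤ (mPairs D pos v).card + e ∧
      (1 - p) * ((univ.filter fun u => D v u).card - ℓ - a - w) - γ - 2 * ℓ - 2 * K - a +
        ((univ.filter fun u => D v u).card : ℝ) ≤
      (univ.filter (fun w' => w' ≠ v ∧ ¬ D v w' ∧ ∃ u, D v u ∧ D u w')).card := by
  classical
  set n := Fintype.card V
  set A := aSet D pos v with hA
  set B := bSet D pos v with hB
  set C := cSet D pos v with hC
  -- a threshold with few distant vertices after it
  obtain ⟨t, ht, hKt, htv⟩ : ∃ t, (B.filter fun x => t ≤ pos x).card ≤ K ∧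
      (t = 0 ∨ K ≤ (B.filter fun x => t ≤ pos x).card) ∧ t ≤ pos v := by
    rcases le_or_gt B.card K with h | h
    · exact ⟨0, (card_filter_le _ _).trans h, Or.inl rfl, Nat.zero_le _⟩
    · obtain ⟨S, hS, hcard, hup, -⟩ := suffix_bound pos hm.inj (fun _ => (0 : ℝ)) 0 0 B (by simp)
        (fun i _ => by simp) (B.card - K) (by omega)
      obtain ⟨b, hb, hbmin⟩ := exists_min_image S pos (card_pos.1 (by omega))
      have : B.filter (fun x => pos b ≤ pos x) = S := by
        ext x
        simp only [mem_filter]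
        exact ⟨fun hx => hup b hb x hx.1 hx.2, fun hx => ⟨hS hx, hbmin x hx⟩⟩
      refine ⟨pos b, by rw [this]; omega, Or.inr (by rw [this]; omega), ?_⟩
      have := hS hb
      simp only [hB, bSet, mem_filter, mem_univ, true_and] at this
      omega
  set a := (A.filter fun x => pos x < t).card with ha
  refine ⟨a, Nat.cast_nonneg _, ?_, ?_⟩
  · -- pairs in front of the threshold
    have hmeq : ((A ×ˢ B).filter fun q => (D q.1 q.2 ∨ D q.2 q.1) ∧ pos q.1 < pos q.2) =
        mPairs D pos v := by
      ext q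
      simp only [mPairs, ← hA, ← hB, mem_filter, mem_product]
      constructor
      · rintro ⟨⟨h1, h2⟩, h3, h4⟩
        refine ⟨⟨h1, h2⟩, h4, h3.resolve_left ?_⟩
        simp only [hA, hB, aSet, bSet, mem_filter, mem_univ, true_and] at h1 h2
        exact h2.2.2 _ h1.2
      · rintro ⟨h1, h2, h3⟩
        exact ⟨h1, Or.inr h3, h2⟩
    have h := (abs_le.1 (htri A B)).1
    rw [hmeq] at h
    have hle : a * (B.filter fun x => t ≤ pos x).card ≤
        ((A ×ˢ B).filter fun q => pos q.1 < pos q.2).card := by
      rw [ha, ← card_product]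
      refine card_le_card fun q hq => ?_
      simp only [mem_filter, mem_product] at hq ⊢
      exact ⟨⟨hq.1.1, hq.2.1⟩, by omega⟩
    rcases hKt with rfl | hKt
    · have : a = 0 := by simp [ha]
      rw [this]
      have := (Nat.cast_nonneg _ : (0 : ℝ) ≤ (mPairs D pos v).card)
      have := (abs_nonneg _).trans (htri A B)
      simp only [Nat.cast_zero, zero_mul]
      positivity
    · have hle' := (Nat.cast_le (α := ℝ)).2 ((Nat.mul_le_mul_left a hKt).trans hle)
      push_cast at hle'
      have := mul_le_mul_of_nonneg_right hle' hp.le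
      linarith
  -- the tail
  have h := median_move D pos hm.lt hm.inj hm.best t (pos v + 1) {v}
    (fun y hy => by rw [mem_singleton] at hy; subst hy; omega)
  have l1 : (A.filter fun x => t ≤ pos x).card ≤
      (C.filter fun x => t ≤ pos x ∧ (D v x ∨ D x v)).card + K := by
    refine le_trans (le_trans (card_le_card_of_injOn (fun x => (x, v)) (fun x hx => ?_)
      fun a _ c _ h => (Prod.ext_iff.1 h).1) h) ?_
    · simp only [hA, aSet, mem_coe, mem_filter, mem_univ, true_and] at hx
      simp only [mem_coe, mem_filter, mem_univ, true_and, mem_singleton]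
      exact ⟨fun h => by rw [h] at hx; omega, hx.2, hx.1.1, hx.1.2⟩
    refine le_trans ?_ (Nat.add_le_add_left ht _)
    refine le_trans ?_ (card_union_le _ _)
    refine card_le_card_of_injOn Prod.fst (fun q hq => ?_) fun a ha c hc h => ?_
    · simp only [mem_coe, mem_filter, mem_univ, true_and, mem_singleton] at hq
      obtain ⟨h1, h2, h3, h4, h5⟩ := hq
      rw [h1] at h4 h5
      rw [mem_coe, mem_union, mem_filter, mem_filter]
      rcases mem_abc (D := D) h4 with ha | hb' | hc'
      · simp only [aSet, mem_filter, mem_univ, true_and] at ha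
        exact absurd h5 (anti _ _ ha.2)
      · exact Or.inr ⟨hb', h3⟩
      · exact Or.inl ⟨hc', h3, Or.inr h5⟩
    · simp only [mem_coe, mem_filter, mem_univ, true_and, mem_singleton] at ha hc
      exact Prod.ext h (ha.1.trans hc.1.symm)
  -- non-neighbours in the tail
  set i := t / w + 1
  have hiw : t ≤ i * w ∧ i * w ≤ t + w := by
    have := Nat.div_add_mod t w
    have := Nat.mod_lt t hw
    simp only [i, add_mul, one_mul]
    rw [mul_comm]
    omega
  have htn : t ≤ n := htv.trans (hm.lt v).le
  have hi : i ≤ n / w + 1 := Nat.succ_le_succ (Nat.div_le_div_right htn)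
  have hg := hgrid i hi
  have l2 : (univ.filter fun x => i * w ≤ pos x).card ≤
      (univ.filter fun x => i * w ≤ pos x ∧ (D v x ∨ D x v)).card +
      (C.filter fun x => t ≤ pos x ∧ ¬ (D v x ∨ D x v)).card + K + ℓ := by
    have hsub : (univ.filter fun x => i * w ≤ pos x) ⊆
        (univ.filter fun x => i * w ≤ pos x ∧ (D v x ∨ D x v)) ∪
        (C.filter fun x => t ≤ pos x ∧ ¬ (D v x ∨ D x v)) ∪
        (B.filter fun x => t ≤ pos x) ∪ (univ.filter fun x => pos v ≤ pos x) := by
      intro x hx
      simp only [mem_union, mem_filter, mem_univ, true_and] at hx ⊢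
      rcases lt_or_ge (pos x) (pos v) with hlt | hge
      · by_cases hadj : D v x ∨ D x v
        · exact Or.inl (Or.inl (Or.inl ⟨hx, hadj⟩))
        rcases mem_abc (D := D) hlt with ha | hb' | hc'
        · simp only [aSet, mem_filter, mem_univ, true_and] at ha
          exact absurd (Or.inl ha.2) hadj
        · exact Or.inl (Or.inr ⟨hb', hiw.1.trans hx⟩)
        · exact Or.inl (Or.inl (Or.inr ⟨hc', hiw.1.trans hx, hadj⟩))
      · exact Or.inr hge
    have h4 : (univ.filter fun x => pos v ≤ pos x).card ≤ ℓ := by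
      rw [card_tail pos hm.lt hm.inj]; omega
    have := card_le_card hsub
    have := card_union_le ((univ.filter fun x => i * w ≤ pos x ∧ (D v x ∨ D x v)) ∪
        (C.filter fun x => t ≤ pos x ∧ ¬ (D v x ∨ D x v)) ∪
        (B.filter fun x => t ≤ pos x)) (univ.filter fun x => pos v ≤ pos x)
    have := card_union_le ((univ.filter fun x => i * w ≤ pos x ∧ (D v x ∨ D x v)) ∪
        (C.filter fun x => t ≤ pos x ∧ ¬ (D v x ∨ D x v))) (B.filter fun x => t ≤ pos x)
    have := card_union_le (univ.filter fun x => i * w ≤ pos x ∧ (D v x ∨ D x v))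
        (C.filter fun x => t ≤ pos x ∧ ¬ (D v x ∨ D x v))
    omega
  have l3 : (C.filter fun x => t ≤ pos x ∧ (D v x ∨ D x v)).card +
      (C.filter fun x => t ≤ pos x ∧ ¬ (D v x ∨ D x v)).card ≤
      (univ.filter (fun w' => w' ≠ v ∧ ¬ D v w' ∧ ∃ u, D v u ∧ D u w')).card := by
    rw [← card_union_of_disjoint (disjoint_filter.2 fun x _ h h' => h'.2 h.2)]
    exact card_le_card ((union_subset (filter_subset _ _) (filter_subset _ _)).trans
      (cSet_subset (D := D) (pos := pos) v))
  have sA : A.card = a + (A.filter fun x => t ≤ pos x).card := by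
    rw [ha, ← card_filter_add_card_filter_not (s := A) (fun x => pos x < t)]
    simp only [not_lt]
  have l5 : (A.filter fun x => t ≤ pos x).card ≤
      (univ.filter fun x => i * w ≤ pos x).card + w := by
    have h1 : (A.filter fun x => t ≤ pos x).card ≤ n - t := by
      rw [← card_tail pos hm.lt hm.inj t]
      exact card_le_card (filter_subset_filter _ (subset_univ _))
    rw [card_tail pos hm.lt hm.inj]
    omega
  have hd := out_le hm v ℓ hv
  have r1 := (Nat.cast_le (α := ℝ)).2 l1
  have r2 := (Nat.cast_le (α := ℝ)).2 l2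
  have r3 := (Nat.cast_le (α := ℝ)).2 l3
  have r5 := (Nat.cast_le (α := ℝ)).2 l5
  have r6 := (Nat.cast_le (α := ℝ)).2 hd
  have r7 := congrArg (Nat.cast (R := ℝ)) sA
  push_cast at r1 r2 r3 r5 r6 r7
  rw [← hA] at r6
  have := mul_le_mul_of_nonneg_left r5 (sub_nonneg.2 hp1)
  have : (1 - p) * ((univ.filter fun u => D v u).card - ℓ - a - w : ℝ) ≤
      (1 - p) * (A.filter fun x => t ≤ pos x).card - (1 - p) * w := by
    rw [← mul_sub]
    exact mul_le_mul_of_nonneg_left (by linarith) (sub_nonneg.2 hp1)
  nlinarith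

end Vale.Agent.P038
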