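import Mathlib

/-!
Median orders of oriented graphs, and double counts in quasi-random underlying graphs.
-/

namespace Vale.Agent.P038

open Finset

variable {V : Type} [Fintype V] [DecidableEq V]

/-- A median order, given by positions `0, …, n - 1`. -/
lemma exists_median (D : V → V → Prop) [DecidableRel D] :
    ∃ pos : V → ℕ, (∀ x, pos x < Fintype.card V) ∧ Function.Injective pos ∧
      ∀ g : V → ℕ, Function.Injective g →
        (univ.filter fun q : V × V => D q.1 q.2 ∧ g q.1 < g q.2).card ≤
          (univ.filter fun q : V × V => D q.1 q.2 ∧ pos q.1 < pos q.2).card := by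
  classical
  obtain ⟨e, -, he⟩ := exists_max_image (univ : Finset (V ≃ Fin (Fintype.card V)))
    (fun e => (univ.filter fun q : V × V => D q.1 q.2 ∧ (e q.1 : ℕ) < e q.2).card)
    ⟨Fintype.equivFin V, mem_univ _⟩
  refine ⟨fun x => e x, fun x => (e x).2, Fin.val_injective.comp e.injective, fun g hg => ?_⟩
  have hs : (univ.image g).card = Fintype.card V := by rw [card_image_of_injective _ hg, card_univ]
  let o := (univ.image g).orderIsoOfFin hs
  let e' : V ≃ Fin (Fintype.card V) := Equiv.ofBijective
    (fun x => o.symm ⟨g x, mem_image_of_mem g (mem_univ x)⟩)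
    ((Fintype.bijective_iff_injective_and_card _).2
      ⟨fun x y h => hg (Subtype.ext_iff.1 (o.symm.injective h)), by simp⟩)
  refine le_trans (le_of_eq ?_) (he e' (mem_univ _))
  congr 1
  refine filter_congr fun q _ => and_congr_right fun _ => ?_
  simp only [e', Equiv.ofBijective_apply, ← Fin.lt_def, OrderIso.lt_iff_lt, Subtype.mk_lt_mk]

/-- Moving a set of vertices of an interval to its front does not gain. -/
lemma median_move (D : V → V → Prop) [DecidableRel D] (pos : V → ℕ)
    (hlt : ∀ x, pos x < Fintype.card V) (inj : Function.Injective pos)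
    (hmax : ∀ g : V → ℕ, Function.Injective g →
      (univ.filter fun q : V × V => D q.1 q.2 ∧ g q.1 < g q.2).card ≤
        (univ.filter fun q : V × V => D q.1 q.2 ∧ pos q.1 < pos q.2).card)
    (s t : ℕ) (M : Finset V) (hM : ∀ y ∈ M, s ≤ pos y ∧ pos y < t) :
    (univ.filter fun q : V × V =>
        q.2 ∈ M ∧ q.1 ∉ M ∧ s ≤ pos q.1 ∧ pos q.1 < pos q.2 ∧ D q.2 q.1).card ≤
      (univ.filter fun q : V × V =>
        q.2 ∈ M ∧ q.1 ∉ M ∧ s ≤ pos q.1 ∧ pos q.1 < pos q.2 ∧ D q.1 q.2).card := by
  classical
  set n := Fintype.card V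
  let g : V → ℕ := fun x =>
    if pos x < s then pos x else if x ∈ M then n + pos x else
      if pos x < t then 2 * n + pos x else 3 * n + pos x
  have ginj : Function.Injective g := by
    intro x y h
    apply inj
    have := hlt x
    have := hlt y
    simp only [g] at h
    split_ifs at h <;> omega
  let O := univ.filter fun q : V × V => D q.1 q.2 ∧ pos q.1 < pos q.2
  let N := univ.filter fun q : V × V => D q.1 q.2 ∧ g q.1 < g q.2
  have h : (N \ O).card ≤ (O \ N).card := by
    have hON : N.card ≤ O.card := hmax g ginj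
    have := card_sdiff_add_card_inter N O
    have := card_sdiff_add_card_inter O N
    rw [inter_comm] at this
    omega
  have key : ∀ x y, (g y < g x ∧ pos x < pos y ∨ g x < g y ∧ pos y < pos x) →
      (y ∈ M ∧ x ∉ M ∧ s ≤ pos x ∧ pos x < pos y) ∨
        (x ∈ M ∧ y ∉ M ∧ s ≤ pos y ∧ pos y < pos x) := by
    intro x y hxy
    have := hlt x
    have := hlt y
    have hx : x ∉ M ∨ (s ≤ pos x ∧ pos x < t) := (em (x ∈ M)).elim (fun h => Or.inr (hM x h)) Or.inl
    have hy : y ∉ M ∨ (s ≤ pos y ∧ pos y < t) := (em (y ∈ M)).elim (fun h => Or.inr (hM y h)) Or.inl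
    simp only [g] at hxy
    by_cases hxM : x ∈ M <;> by_cases hyM : y ∈ M <;>
      simp [hxM, hyM] at hx hy hxy ⊢ <;> split_ifs at hxy <;> omega
  have key' : ∀ x y, y ∈ M → x ∉ M → s ≤ pos x → pos x < pos y → g y < g x := by
    intro x y hy hx h1 h2
    have := hlt y
    obtain ⟨hy1, hy2⟩ := hM y hy
    simp only [g]
    rw [if_neg (by omega), if_pos hy, if_neg (by omega), if_neg hx]
    split_ifs <;> omega
  calc (univ.filter fun q : V × V =>
        q.2 ∈ M ∧ q.1 ∉ M ∧ s ≤ pos q.1 ∧ pos q.1 < pos q.2 ∧ D q.2 q.1).card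
      ≤ (N \ O).card := by
        refine card_le_card_of_injOn Prod.swap (fun q hq => ?_) Prod.swap_injective.injOn
        simp only [mem_coe, mem_filter, mem_univ, true_and] at hq
        obtain ⟨h1, h2, h3, h4, h5⟩ := hq
        simp only [mem_coe, N, O, mem_sdiff, mem_filter, mem_univ, true_and, Prod.fst_swap,
          Prod.snd_swap]
        exact ⟨⟨h5, key' _ _ h1 h2 h3 h4⟩, fun h' => by omega⟩
    _ ≤ (O \ N).card := h
    _ ≤ _ := by
        refine card_le_card fun q hq => ?_
        simp only [N, O, mem_sdiff, mem_filter, mem_univ, true_and] at hq ⊢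
        obtain ⟨⟨h1, h2⟩, h3⟩ := hq
        have h4 : g q.2 < g q.1 := by
          have : g q.1 ≠ g q.2 := fun h => by have := ginj h; rw [this] at h2; omega
          have : ¬ g q.1 < g q.2 := fun h => h3 ⟨h1, h⟩
          omega
        rcases key q.1 q.2 (Or.inl ⟨h4, h2⟩) with h | h
        · exact ⟨h.1, h.2.1, h.2.2.1, h.2.2.2, h1⟩
        · omega

/-- Positions fill an initial segment. -/
lemma card_tail (pos : V → ℕ) (hlt : ∀ x, pos x < Fintype.card V) (inj : Function.Injective pos)
    (s : ℕ) : (univ.filter fun x => s ≤ pos x).card = Fintype.card V - s := by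
  classical
  have himg : univ.image pos = range (Fintype.card V) := by
    refine eq_of_subset_of_card_le (fun i hi => ?_) ?_
    · obtain ⟨x, -, rfl⟩ := mem_image.1 hi
      exact mem_range.2 (hlt x)
    · rw [card_image_of_injective _ inj, card_range, card_univ]
  calc (univ.filter fun x => s ≤ pos x).card
      = ((univ.filter fun x => s ≤ pos x).image pos).card := (card_image_of_injective _ inj).symm
    _ = (Ico s (Fintype.card V)).card := by
        congr 1
        ext i
        simp only [mem_image, mem_filter, mem_univ, true_and, mem_Ico]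
        constructor
        · rintro ⟨x, hx, rfl⟩
          exact ⟨hx, hlt x⟩
        · rintro ⟨h1, h2⟩
          have : i ∈ univ.image pos := himg ▸ mem_range.2 h2
          obtain ⟨x, -, rfl⟩ := mem_image.1 this
          exact ⟨x, h1, rfl⟩
    _ = _ := Nat.card_Ico _ _

/-- Forward pairs between two sets, in a quasi-random graph. -/
lemma tri_bound (R : V → V → Prop) [DecidableRel R] {p η : ℝ} (hp : 0 ≤ p) (hp1 : p ≤ 1)
    (hη : 0 ≤ η)
    (hq : ∀ X Y : Finset V, |(((X ×ˢ Y).filter fun q => R q.1 q.2).card : ℝ)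
      - p * (X.card * Y.card)| ≤ η * (Fintype.card V : ℝ) ^ 2)
    (pos : V → ℕ) (hlt : ∀ x, pos x < Fintype.card V) (inj : Function.Injective pos)
    (w : ℕ) (hw : 0 < w) (X Y : Finset V) :
    |(((X ×ˢ Y).filter fun q => R q.1 q.2 ∧ pos q.1 < pos q.2).card : ℝ)
      - p * ((X ×ˢ Y).filter fun q => pos q.1 < pos q.2).card| ≤
      ((Fintype.card V : ℝ) / w + 1) * η * (Fintype.card V : ℝ) ^ 2
        + (Fintype.card V : ℝ) * w := by
  classical
  set n := Fintype.card V
  set S := (X ×ˢ Y).filter fun q => pos q.1 < pos q.2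
  set Sd := S.filter fun q => pos q.1 / w = pos q.2 / w
  set So := (X ×ˢ Y).filter fun q => pos q.1 / w < pos q.2 / w
  have hdiag : (Sd.card : ℝ) ≤ (n : ℝ) * w := by
    have : Sd.card ≤ (univ : Finset V).card * w := by
      rw [mul_comm]
      refine card_le_mul_card_image_of_maps_to (f := fun q : V × V => q.1)
        (t := (univ : Finset V)) (fun q _ => mem_univ _) w fun x _ => ?_
      calc (Sd.filter fun q => q.1 = x).card
          ≤ (Ico (w * (pos x / w)) (w * (pos x / w) + w)).card := by
            refine card_le_card_of_injOn (fun q => pos q.2) (fun q hq => ?_) ?_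
            · simp only [Sd, mem_coe, mem_filter] at hq
              obtain ⟨⟨-, h1⟩, h2⟩ := hq
              rw [← h2, h1]
              have := Nat.div_add_mod (pos q.2) w
              have := Nat.mod_lt (pos q.2) hw
              simp only [mem_coe, mem_Ico]
              omega
            · intro a ha b hb h
              simp only [mem_coe, mem_filter] at ha hb
              exact Prod.ext (ha.2.trans hb.2.symm) (inj h)
        _ = w := by simp
    rw [card_univ] at this
    exact_mod_cast this
  have split : ∀ (T : V × V → Prop) [DecidablePred T],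
      (S.filter T).card = (So.filter T).card + (Sd.filter T).card := by
    intro T _
    rw [← card_union_of_disjoint]
    · congr 1
      ext q
      simp only [S, So, Sd, mem_filter, mem_union]
      constructor
      · rintro ⟨⟨h1, h2⟩, h3⟩
        rcases lt_or_eq_of_le (Nat.div_le_div_right (c := w) h2.le) with h | h
        · exact Or.inl ⟨⟨h1, h⟩, h3⟩
        · exact Or.inr ⟨⟨⟨h1, h2⟩, h⟩, h3⟩
      · rintro (⟨⟨h1, h⟩, h3⟩ | ⟨⟨h, -⟩, h3⟩)
        · refine ⟨⟨h1, ?_⟩, h3⟩
          by_contra hle
          have := Nat.div_le_div_right (c := w) (not_lt.1 hle)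
          omega
        · exact ⟨h, h3⟩
    · rw [disjoint_left]
      intro q h1 h2
      simp only [So, Sd, mem_filter] at h1 h2
      omega
  -- the off-diagonal part is a union of few products
  set I := range (n / w + 1)
  let Xi : ℕ → Finset V := fun i => X.filter fun x => pos x / w = i
  let Yi : ℕ → Finset V := fun i => Y.filter fun y => i < pos y / w
  have prods : ∀ (T : V × V → Prop) [DecidablePred T],
      (So.filter T).card = ∑ i ∈ I, ((Xi i ×ˢ Yi i).filter T).card := by
    intro T _
    rw [card_eq_sum_card_fiberwise (f := fun q => pos q.1 / w) (t := I) fun q _ => by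
      simp only [I, mem_coe, mem_range]
      exact Nat.lt_succ_of_le (Nat.div_le_div_right (hlt q.1).le)]
    refine sum_congr rfl fun i _ => ?_
    congr 1
    ext q
    simp only [So, Xi, Yi, mem_filter, mem_product]
    constructor
    · rintro ⟨⟨⟨⟨h1, h2⟩, h3⟩, h4⟩, rfl⟩; exact ⟨⟨⟨h1, rfl⟩, h2, h3⟩, h4⟩
    · rintro ⟨⟨⟨h1, rfl⟩, h2, h3⟩, h4⟩; exact ⟨⟨⟨⟨h1, h2⟩, h3⟩, h4⟩, rfl⟩
  have e1 := split fun q => R q.1 q.2
  have e2 := split fun _ => True
  rw [prods fun q => R q.1 q.2] at e1
  rw [prods fun _ => True] at e2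
  simp only [filter_true_of_mem (fun _ _ => trivial), card_product] at e2
  have e0 : ((X ×ˢ Y).filter fun q => R q.1 q.2 ∧ pos q.1 < pos q.2) =
      S.filter fun q => R q.1 q.2 := by
    ext q
    simp only [S, mem_filter]
    tauto
  rw [e0, e1, e2]
  push_cast
  rw [mul_add, mul_sum]
  have hbound : |∑ i ∈ I, (((Xi i ×ˢ Yi i).filter fun q => R q.1 q.2).card : ℝ)
      - ∑ i ∈ I, p * ((Xi i).card * (Yi i).card)| ≤ ((n : ℝ) / w + 1) * η * (n : ℝ) ^ 2 := by
    rw [← sum_sub_distrib]
    refine (abs_sum_le_sum_abs _ _).trans ((sum_le_sum fun i _ => hq (Xi i) (Yi i)).trans ?_)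
    rw [sum_const, nsmul_eq_mul, card_range, mul_assoc]
    refine mul_le_mul_of_nonneg_right ?_ (by positivity)
    push_cast
    linarith [Nat.cast_div_le (m := n) (n := w) (α := ℝ)]
  have hsd : ((Sd.filter fun q => R q.1 q.2).card : ℝ) ≤ Sd.card := by
    exact_mod_cast card_filter_le _ _
  have h0 : (0 : ℝ) ≤ (Sd.filter fun q => R q.1 q.2).card := Nat.cast_nonneg _
  have h1 : p * (Sd.card : ℝ) ≤ Sd.card := mul_le_of_le_one_left (Nat.cast_nonneg _) hp1
  have h2 : 0 ≤ p * (Sd.card : ℝ) := mul_nonneg hp (Nat.cast_nonneg _)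
  rw [abs_le] at hbound ⊢
  constructor <;> linarith [hbound.1, hbound.2]

/-- If every suffix sum is nearly dominated by its first term, suffix averages cannot grow. -/
lemma suffix_bound (pos : V → ℕ) (inj : Function.Injective pos) (g : V → ℝ) (E Z : ℝ)
    (B : Finset V) (h0 : ∑ b ∈ B, g b ≤ E - Z)
    (h : ∀ i ∈ B, ∑ b ∈ B.filter (fun b => pos i ≤ pos b), (g b - g i) ≤ E) :
    ∀ j, j < B.card → ∃ S ⊆ B, S.card + j = B.card ∧
      (∀ x ∈ S, ∀ y ∈ B, pos x ≤ pos y → y ∈ S) ∧
      ∑ b ∈ S, g b ≤ E - Z * ((S.card : ℝ) / B.card) := by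
  classical
  intro j
  induction j with
  | zero =>
    intro hm
    refine ⟨B, Subset.rfl, by simp, fun _ _ y hy _ => hy, ?_⟩
    have hm' : (B.card : ℝ) ≠ 0 := by exact_mod_cast hm.ne'
    rwa [div_self hm', mul_one]
  | succ j ih =>
    intro hj
    obtain ⟨S, hS, hcard, hup, hsum⟩ := ih (by omega)
    obtain ⟨i, hi, hmin⟩ := exists_min_image S pos (card_pos.1 (by omega))
    have hfilt : B.filter (fun b => pos i ≤ pos b) = S := by
      ext b
      simp only [mem_filter]
      exact ⟨fun hb => hup i hi b hb.1 hb.2, fun hb => ⟨hS hb, hmin b hb⟩⟩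
    have hs := h i (hS hi)
    rw [hfilt, sum_sub_distrib, sum_const, nsmul_eq_mul] at hs
    refine ⟨S.erase i, (erase_subset _ _).trans hS, by rw [card_erase_of_mem hi]; omega, ?_, ?_⟩
    · intro x hx y hy hxy
      refine mem_erase.2 ⟨fun h => ?_, hup x (mem_of_mem_erase hx) y hy hxy⟩
      subst h
      have := hmin x (mem_of_mem_erase hx)
      exact ne_of_mem_erase hx (inj (le_antisymm hxy this))
    · rw [sum_erase_eq_sub hi, card_erase_of_mem hi]
      have hc : (0 : ℝ) < S.card := by exact_mod_cast card_pos.2 ⟨i, hi⟩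
      have hc1 : (1 : ℝ) ≤ S.card := by exact_mod_cast card_pos.2 ⟨i, hi⟩
      rw [Nat.cast_sub (card_pos.2 ⟨i, hi⟩), Nat.cast_one]
      -- combine the bound on the sum with the bound on its first term
      refine le_of_mul_le_mul_left ?_ hc
      have key := mul_le_mul_of_nonneg_left hsum (sub_nonneg.2 hc1)
      have e : (S.card : ℝ) * (Z * ((S.card - 1) / B.card)) =
          (S.card - 1) * (Z * (S.card / B.card)) := by ring
      nlinarith [key, hs, e]

end Vale.Agent.P038
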